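import Crest.Prelude.Def_GraphMetric

/-! # Row 206 (S0317): planar graphs have no `K₃,₃` and no `K₅` model (helper6).

Logarithms of `c(s) - c'(t)` on a square give integers `N q x y` (winding of the arc `xy` around
`q`) with one linear relation for every pair of disjoint edges; these relations are contradictory
modulo `2` on `K₃,₃` and `K₅`. -/

set_option autoImplicit false

open Complex SimpleGraph
open Crest.GeometryTopology.GraphMetric

namespace Crest.Agent.N206.Top

variable {V : Type*} {G : SimpleGraph V}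

theorem exists_log {X : Type*} [TopologicalSpace X] [SimplyConnectedSpace X]
    [LocallyPathConnectedSpace X] {g : X → ℂ} (hg : Continuous g) (h0 : ∀ x, g x ≠ 0) :
    ∃ L : X → ℂ, Continuous L ∧ ∀ x, exp (L x) = g x := by
  obtain ⟨x₀⟩ : Nonempty X := inferInstance
  obtain ⟨f, ⟨-, hf⟩, -⟩ := isCoveringMapOn_exp.existsUnique_continuousMap_lifts ⟨g, hg⟩
    (exp_log (h0 x₀)) h0
  exact ⟨f, f.continuous, fun x => congrFun hf x⟩

theorem var_eq {L L' : ℝ → ℂ} (hL : Continuous L) (hL' : Continuous L') {u : ℂ}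
    (h : ∀ t, exp (L t) = u * exp (L' t)) : L 1 - L 0 = L' 1 - L' 0 := by
  have := isCoveringMap_exp.const_of_comp (hL.sub hL') (fun a a' => Subtype.ext (by
    simp only [Pi.sub_apply, exp_sub, h, mul_div_cancel_right₀ _ (exp_ne_zero _)])) 1 0
  simp only [Pi.sub_apply] at this
  linear_combination this

/-- the parity data of a drawing -/
structure Par (G : SimpleGraph V) where
  N : V → V → V → ℤ
  m : V → V → ℤ
  hm : ∀ p q, p ≠ q → m p q + m q p = -1
  hN : ∀ x y x' y', G.Adj x y → G.Adj x' y' → x ≠ x' → x ≠ y' → y ≠ x' → y ≠ y' →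
    N x' x y + N y x' y' + m y x' + m y' y = N x x' y' + N y' x y + m x x' + m y' x

theorem exists_par (h : IsPlanar G) : Nonempty (Par G) := by
  obtain ⟨D⟩ := h
  set φ := Complex.orthonormalBasisOneI.repr.symm with hφ
  set P : V → ℂ := fun v => φ (D.pos v) with hP
  have hPi : ∀ p q, p ≠ q → P p - P q ≠ 0 := fun p q h e =>
    h (D.pos_injective (φ.injective (sub_eq_zero.1 e)))
  obtain ⟨c, hc⟩ : ∃ c : V → V → ℝ → ℂ, ∀ x y, G.Adj x y → Continuous (c x y) ∧ c x y 0 = P x ∧
      c x y 1 = P y ∧ ∀ t, ∃ z ∈ D.arc x y, c x y t = φ z := by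
    choose c h1 h2 h3 h4 h5 using D.arc_isArc
    classical
    refine ⟨fun x y t => if h : G.Adj x y then φ (c x y h (Set.projIcc 0 1 zero_le_one t)) else 0,
      fun x y h => ?_⟩
    simp only [dif_pos h]
    refine ⟨φ.continuous.comp ((h1 x y h).comp continuous_projIcc), ?_, ?_, fun t =>
      ⟨_, h5 x y h ▸ Set.mem_range_self _, rfl⟩⟩
    · rw [Set.projIcc_left]; exact congrArg φ (h3 x y h)
    · rw [Set.projIcc_right]; exact congrArg φ (h4 x y h)
  have hI : (2 * Real.pi * I : ℂ) ≠ 0 := two_pi_I_ne_zero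
  have hL : ∀ q x y, ∃ (L : ℝ → ℂ) (n : ℤ), G.Adj x y → q ≠ x → q ≠ y → Continuous L ∧
      (∀ t, exp (L t) = c x y t - P q) ∧
      L 1 - L 0 = log (P y - P q) - log (P x - P q) + n * (2 * Real.pi * I) := by
    intro q x y
    by_cases h : G.Adj x y ∧ q ≠ x ∧ q ≠ y
    · obtain ⟨h1, h2, h3, h4⟩ := hc x y h.1
      obtain ⟨L, hL, hL'⟩ := exists_log (h1.sub continuous_const) fun t e => by
        obtain ⟨z, hz, e'⟩ := h4 t
        have : z = D.pos q := φ.injective (by rw [← e']; exact sub_eq_zero.1 e)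
        rcases D.arc_vertex x y q h.1 (this ▸ hz) with h5 | h5
        exacts [h.2.1 h5, h.2.2 h5]
      obtain ⟨n, hn⟩ := exp_eq_exp_iff_exists_int.1
        (show exp (L 1 - L 0) = exp (log (P y - P q) - log (P x - P q)) by
          rw [exp_sub, exp_sub, hL', hL', exp_log (hPi _ _ h.2.2.symm),
            exp_log (hPi _ _ h.2.1.symm), Pi.sub_apply, Pi.sub_apply, h2, h3])
      exact ⟨L, n, fun _ _ _ => ⟨hL, hL', hn⟩⟩
    · exact ⟨0, 0, fun h1 h2 h3 => absurd ⟨h1, h2, h3⟩ h⟩
  have hm : ∀ p q, ∃ m : ℤ, p ≠ q →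
      log (P p - P q) = log (P q - P p) + Real.pi * I + m * (2 * Real.pi * I) := by
    intro p q
    by_cases h : p = q
    · exact ⟨0, fun h' => absurd h h'⟩
    · obtain ⟨n, hn⟩ := exp_eq_exp_iff_exists_int.1
        (show exp (log (P p - P q)) = exp (log (P q - P p) + Real.pi * I) by
          rw [exp_add, exp_log (hPi _ _ h), exp_log (hPi _ _ (Ne.symm h)), exp_pi_mul_I]; ring)
      exact ⟨n, fun _ => hn⟩
  choose L N hL using hL
  choose m hm using hm
  refine ⟨⟨N, m, fun p q h => ?_, fun x y x' y' h h' h1 h2 h3 h4 => ?_⟩⟩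
  · have : ((m p q + m q p : ℤ) : ℂ) = (-1 : ℤ) := mul_right_cancel₀ hI (by
      push_cast
      linear_combination -hm p q h - hm q p h.symm)
    exact_mod_cast this
  · obtain ⟨a1, a2, a3, a4⟩ := hc x y h
    obtain ⟨b1, b2, b3, b4⟩ := hc x' y' h'
    obtain ⟨Λ, hΛ, hΛ'⟩ := exists_log (X := ℝ × ℝ) (g := fun z => c x y z.1 - c x' y' z.2)
      (by fun_prop) fun z e => by
        obtain ⟨w, hw, e1⟩ := a4 z.1
        obtain ⟨w', hw', e2⟩ := b4 z.2
        have e3 : w = w' := φ.injective (by rw [← e1, ← e2]; exact sub_eq_zero.1 e)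
        subst e3
        obtain ⟨v, hv⟩ := D.arc_inter x y x' y' h h' (by simp [h1, h2]) w ⟨hw, hw'⟩
        subst hv
        rcases D.arc_vertex x y v h hw with rfl | rfl <;>
          rcases D.arc_vertex x' y' _ h' hw' with h5 | h5 <;> contradiction
    obtain ⟨c1, c2, c3⟩ := hL x' x y h h1.symm h3.symm
    obtain ⟨d1, d2, d3⟩ := hL y' x y h h2.symm h4.symm
    obtain ⟨e1, e2, e3⟩ := hL x x' y' h' h1 h2
    obtain ⟨f1, f2, f3⟩ := hL y x' y' h' h3 h4
    have g1 := var_eq (L := fun t => Λ (t, 0)) (by fun_prop) c1 (u := 1) fun t => by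
      rw [hΛ', c2, b2, one_mul]
    have g2 := var_eq (L := fun t => Λ (t, 1)) (by fun_prop) d1 (u := 1) fun t => by
      rw [hΛ', d2, b3, one_mul]
    have g3 := var_eq (L := fun t => Λ (0, t)) (by fun_prop) e1 (u := -1) fun t => by
      rw [hΛ', e2, a2]; ring
    have g4 := var_eq (L := fun t => Λ (1, t)) (by fun_prop) f1 (u := -1) fun t => by
      rw [hΛ', f2, a3]; ring
    have : ((N x' x y + N y x' y' + m y x' + m y' y : ℤ) : ℂ) =
        (N x x' y' + N y' x y + m x x' + m y' x : ℤ) := mul_right_cancel₀ hI (by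
      push_cast
      linear_combination -c3 - f3 + e3 + d3 - g1 - g4 + g3 + g2 - hm y x' h3 - hm y' y h4.symm
        + hm x x' h1 + hm y' x h2.symm)
    exact_mod_cast this

namespace Par

variable (π : Par G)

/-- winding of a walk -/
def W (q : V) : {a b : V} → G.Walk a b → ℤ
  | _, _, .nil => 0
  | a, _, .cons (v := x) _ w => π.N q a x + W q w

theorem edge_walk {x y c d : V} (h : G.Adj x y) (w : G.Walk c d) (hx : x ∉ w.support)
    (hy : y ∉ w.support) :
    π.N c x y + π.W y w + π.m y c + π.m d y = π.W x w + π.N d x y + π.m x c + π.m d x := by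
  induction w with
  | nil =>
    rename_i c
    simp only [Walk.support_nil, List.mem_singleton] at hx hy
    have := π.hm _ _ hx
    have := π.hm _ _ hy
    simp only [W]
    omega
  | cons h' w ih =>
    rename_i c z d
    simp only [Walk.support_cons, List.mem_cons, not_or] at hx hy
    have hxz : x ≠ z := fun e => hx.2 (e ▸ w.start_mem_support)
    have hyz : y ≠ z := fun e => hy.2 (e ▸ w.start_mem_support)
    have := ih hx.2 hy.2
    have := π.hN x y c z h h' hx.1 hxz hy.1 hyz
    have := π.hm _ _ hxz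
    have := π.hm _ _ hyz
    simp only [W]
    omega

theorem walk_walk {a b c d : V} (w : G.Walk a b) (w' : G.Walk c d)
    (h : ∀ v ∈ w.support, v ∉ w'.support) :
    π.W c w + π.W b w' + π.m b c + π.m d b = π.W a w' + π.W d w + π.m a c + π.m d a := by
  induction w with
  | nil => simp only [W]; omega
  | cons h' w ih =>
    simp only [Walk.support_cons, List.mem_cons, forall_eq_or_imp] at h
    have := ih h.2
    have := π.edge_walk h' w' h.1 (h.2 _ w.start_mem_support)
    simp only [W]
    omega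

end Par

/-- **no `K₃,₃`**, walk form -/
theorem no_k33_walks (h : IsPlanar G) (a b : Fin 3 → V) (w : ∀ i j, G.Walk (a i) (b j))
    (hw : ∀ i j k l, i ≠ k → j ≠ l → ∀ v ∈ (w i j).support, v ∉ (w k l).support) : False := by
  obtain ⟨π⟩ := exists_par h
  have E := fun i j k l h1 h2 => π.walk_walk (w i j) (w k l) (hw i j k l h1 h2)
  have A : ∀ i j k l, i ≠ k → j ≠ l → π.m (b l) (a i) + π.m (a i) (b l) = -1 :=
    fun i j k l h1 h2 => π.hm _ _ fun e =>
      hw i j k l h1 h2 _ (w i j).start_mem_support (e ▸ (w k l).end_mem_support)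
  have B : ∀ i j k l, i ≠ k → j ≠ l → π.m (b l) (b j) + π.m (b j) (b l) = -1 :=
    fun i j k l h1 h2 => π.hm _ _ fun e =>
      hw i j k l h1 h2 _ (w i j).end_mem_support (e ▸ (w k l).end_mem_support)
  have := E 0 0 1 1 (by decide) (by decide)
  have := E 0 0 1 2 (by decide) (by decide)
  have := E 0 1 1 0 (by decide) (by decide)
  have := E 0 1 1 2 (by decide) (by decide)
  have := E 0 2 1 0 (by decide) (by decide)
  have := E 0 2 1 1 (by decide) (by decide)
  have := E 0 0 2 1 (by decide) (by decide)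
  have := E 0 0 2 2 (by decide) (by decide)
  have := E 0 1 2 0 (by decide) (by decide)
  have := E 0 1 2 2 (by decide) (by decide)
  have := E 0 2 2 0 (by decide) (by decide)
  have := E 0 2 2 1 (by decide) (by decide)
  have := E 1 0 2 1 (by decide) (by decide)
  have := E 1 0 2 2 (by decide) (by decide)
  have := E 1 1 2 0 (by decide) (by decide)
  have := E 1 1 2 2 (by decide) (by decide)
  have := E 1 2 2 0 (by decide) (by decide)
  have := E 1 2 2 1 (by decide) (by decide)
  have := A 1 1 0 0 (by decide) (by decide)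
  have := A 1 0 0 1 (by decide) (by decide)
  have := A 1 0 0 2 (by decide) (by decide)
  have := B 0 0 1 1 (by decide) (by decide)
  have := B 0 0 1 2 (by decide) (by decide)
  have := B 0 1 1 2 (by decide) (by decide)
  omega

/-- **no `K₅`**, walk form (only the walks `w i j` with `i < j` matter) -/
theorem no_k5_walks (h : IsPlanar G) (a : Fin 5 → V) (w : ∀ i j, G.Walk (a i) (a j))
    (hw : ∀ i j k l, i < j → k < l → i ≠ k → i ≠ l → j ≠ k → j ≠ l →
      ∀ v ∈ (w i j).support, v ∉ (w k l).support) : False := by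
  obtain ⟨π⟩ := exists_par h
  have E := fun i j k l h1 h2 h3 h4 h5 h6 =>
    π.walk_walk (w i j) (w k l) (hw i j k l h1 h2 h3 h4 h5 h6)
  have A : ∀ i j k l, i < j → k < l → i ≠ k → i ≠ l → j ≠ k → j ≠ l →
      π.m (a k) (a j) + π.m (a j) (a k) = -1 ∧ π.m (a l) (a j) + π.m (a j) (a l) = -1 ∧
      π.m (a k) (a i) + π.m (a i) (a k) = -1 ∧ π.m (a l) (a i) + π.m (a i) (a l) = -1 :=
    fun i j k l h1 h2 h3 h4 h5 h6 => by
      have H := hw i j k l h1 h2 h3 h4 h5 h6
      exact ⟨π.hm _ _ fun e => H _ (w i j).end_mem_support (e ▸ (w k l).start_mem_support),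
        π.hm _ _ fun e => H _ (w i j).end_mem_support (e ▸ (w k l).end_mem_support),
        π.hm _ _ fun e => H _ (w i j).start_mem_support (e ▸ (w k l).start_mem_support),
        π.hm _ _ fun e => H _ (w i j).start_mem_support (e ▸ (w k l).end_mem_support)⟩
  have := E 0 1 2 3 (by decide) (by decide) (by decide) (by decide) (by decide) (by decide)
  have := E 0 1 2 4 (by decide) (by decide) (by decide) (by decide) (by decide) (by decide)
  have := E 0 1 3 4 (by decide) (by decide) (by decide) (by decide) (by decide) (by decide)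
  have := E 0 2 1 3 (by decide) (by decide) (by decide) (by decide) (by decide) (by decide)
  have := E 0 2 1 4 (by decide) (by decide) (by decide) (by decide) (by decide) (by decide)
  have := E 0 2 3 4 (by decide) (by decide) (by decide) (by decide) (by decide) (by decide)
  have := E 0 3 1 2 (by decide) (by decide) (by decide) (by decide) (by decide) (by decide)
  have := E 0 3 1 4 (by decide) (by decide) (by decide) (by decide) (by decide) (by decide)
  have := E 0 3 2 4 (by decide) (by decide) (by decide) (by decide) (by decide) (by decide)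
  have := E 0 4 1 2 (by decide) (by decide) (by decide) (by decide) (by decide) (by decide)
  have := E 0 4 1 3 (by decide) (by decide) (by decide) (by decide) (by decide) (by decide)
  have := E 0 4 2 3 (by decide) (by decide) (by decide) (by decide) (by decide) (by decide)
  have := E 1 2 3 4 (by decide) (by decide) (by decide) (by decide) (by decide) (by decide)
  have := E 1 3 2 4 (by decide) (by decide) (by decide) (by decide) (by decide) (by decide)
  have := E 1 4 2 3 (by decide) (by decide) (by decide) (by decide) (by decide) (by decide)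
  have := A 0 1 2 3 (by decide) (by decide) (by decide) (by decide) (by decide) (by decide)
  have := A 0 2 1 4 (by decide) (by decide) (by decide) (by decide) (by decide) (by decide)
  have := A 0 3 2 4 (by decide) (by decide) (by decide) (by decide) (by decide) (by decide)
  have := A 0 4 1 3 (by decide) (by decide) (by decide) (by decide) (by decide) (by decide)
  omega

/-- any two points of `S` are joined by a walk inside `S` -/
def Conn (G : SimpleGraph V) (S : Set V) : Prop :=
  ∀ x ∈ S, ∀ y ∈ S, ∃ w : G.Walk x y, ∀ v ∈ w.support, v ∈ S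


theorem exists_walk_join {S T : Set V} (hS : Conn G S) (hT : Conn G T)
    (h : ∃ s ∈ S, ∃ t ∈ T, G.Adj s t) {a b : V} (ha : a ∈ S) (hb : b ∈ T) :
    ∃ w : G.Walk a b, ∀ v ∈ w.support, v ∈ S ∨ v ∈ T := by
  obtain ⟨s, hs, t, ht, h⟩ := h
  obtain ⟨w₁, h₁⟩ := hS a ha s hs
  obtain ⟨w₂, h₂⟩ := hT t ht b hb
  refine ⟨w₁.append (.cons h w₂), fun v hv => ?_⟩
  rw [Walk.mem_support_append_iff, Walk.support_cons, List.mem_cons] at hv
  rcases hv with hv | rfl | hv
  exacts [.inl (h₁ v hv), .inl hs, .inr (h₂ v hv)]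

/-- **no `K₃,₃` model** -/
theorem no_k33 (h : IsPlanar G) (A B : Fin 3 → Set V) (hA : ∀ i, Conn G (A i))
    (hB : ∀ j, Conn G (B j)) (hAA : ∀ i k, i ≠ k → Disjoint (A i) (A k))
    (hBB : ∀ j l, j ≠ l → Disjoint (B j) (B l)) (hAB : ∀ i j, Disjoint (A i) (B j))
    (hadj : ∀ i j, ∃ s ∈ A i, ∃ t ∈ B j, G.Adj s t) : False := by
  choose a ha using fun i => (hadj i 0).imp fun _ h => h.1
  choose b hb using fun j => (hadj 0 j).choose_spec.2.imp fun _ h => h.1
  choose w hw using fun i j => exists_walk_join (hA i) (hB j) (hadj i j) (ha i) (hb j)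
  refine no_k33_walks h a b w fun i j k l h1 h2 v hv hv' => ?_
  rcases hw i j v hv with e | e <;> rcases hw k l v hv' with e' | e'
  exacts [Set.disjoint_left.1 (hAA i k h1) e e', Set.disjoint_left.1 (hAB i l) e e',
    Set.disjoint_left.1 (hAB k j) e' e, Set.disjoint_left.1 (hBB j l h2) e e']

/-- **no `K₅` model** -/
theorem no_k5 (h : IsPlanar G) (A : Fin 5 → Set V) (hA : ∀ i, Conn G (A i))
    (hAA : ∀ i k, i ≠ k → Disjoint (A i) (A k))
    (hadj : ∀ i j, i ≠ j → ∃ s ∈ A i, ∃ t ∈ A j, G.Adj s t) : False := by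
  choose a ha using fun i : Fin 5 =>
    (hadj i (i + 1) (by revert i; decide)).imp fun _ h => h.1
  have : ∀ i j, ∃ w : G.Walk (a i) (a j), ∀ v ∈ w.support, v ∈ A i ∨ v ∈ A j := fun i j => by
    by_cases e : i = j
    · subst e; exact ⟨.nil, by simp [ha]⟩
    · exact exists_walk_join (hA i) (hA j) (hadj i j e) (ha i) (ha j)
  choose w hw using this
  refine no_k5_walks h a w fun i j k l _ _ h1 h2 h3 h4 v hv hv' => ?_
  rcases hw i j v hv with e | e <;> rcases hw k l v hv' with e' | e'
  exacts [Set.disjoint_left.1 (hAA i k h1) e e', Set.disjoint_left.1 (hAA i l h2) e e',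
    Set.disjoint_left.1 (hAA j k h3) e e', Set.disjoint_left.1 (hAA j l h4) e e']

end Crest.Agent.N206.Top
namespace Crest.Agent.N206.Top.Conn
end Crest.Agent.N206.Top.Conn
private theorem rz_1d12e63d7a : type_of% @_root_.Crest.Agent.N206.Top.Par.W.eq_def := @_root_.Crest.Agent.N206.Top.Par.W.eq_def -- L128
private theorem rz_03fdc8942a : type_of% @_root_.Crest.Agent.N206.Top.Par.W.eq_1 := @_root_.Crest.Agent.N206.Top.Par.W.eq_1 -- L128
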